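import Vale.Agent.Lib.P002.G1Defs

/-!
# P002 pool job G1-G (helper72)

A vector whose chain frame is invertible for an upper triangular matrix with distinct diagonal
entries, and back substitution for upper triangular systems.
-/

namespace Vale.Agent.Lib.P002.H72

open Matrix
open Vale.Agent.Lib.P002

theorem exists_jorU_ut_aux : ∀ (k : ℕ) (δ : Fin (k + 1) → ℂ), Function.Injective δ →
    ∀ T : Matrix (Fin (k + 1)) (Fin (k + 1)) ℂ, (∀ i j, j < i → T i j = 0) →
    (∀ i, T i i = δ i) → ∃ v : Fin (k + 1) → ℂ, (jorU δ T v).det ≠ 0 := by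
  intro k
  induction k with
  | zero =>
    intro δ _ T _ _
    refine ⟨fun _ => 1, ?_⟩
    have hcol := congrFun (jorU_col_last δ T (fun _ => (1 : ℂ))) 0
    rw [Matrix.det_fin_one]
    have h0 : (Fin.last 0 : Fin 1) = 0 := rfl
    rw [h0] at hcol
    rw [hcol]
    exact one_ne_zero
  | succ k ih =>
    intro δ hδ T hT hTd
    obtain ⟨N, hNdef⟩ : ∃ N : Matrix (Fin (k + 1)) (Fin (k + 1)) ℂ,
        N = T.submatrix Fin.succ Fin.succ := ⟨_, rfl⟩
    obtain ⟨ζ, hζdef⟩ : ∃ ζ : Fin (k + 1) → ℂ, ζ = fun j => T 0 j.succ := ⟨_, rfl⟩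
    have hTb : T = bmat (δ 0) ζ 0 N := by
      have h1 := eq_bmat T
      have h2 : (fun i : Fin (k + 1) => T i.succ 0) = 0 := by
        funext i
        exact hT i.succ 0 (Fin.succ_pos i)
      rw [h2, hTd 0, ← hζdef, ← hNdef] at h1
      exact h1
    have hN : ∀ i j, j < i → N i j = 0 := by
      intro i j hij
      rw [hNdef]
      exact hT i.succ j.succ (Fin.succ_lt_succ_iff.mpr hij)
    have hNd : ∀ i, N i i = δ i.succ := by
      intro i
      rw [hNdef]
      exact hTd i.succ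
    obtain ⟨v', hv'⟩ := ih (fun l => δ l.succ) (hδ.comp (Fin.succ_injective _)) N hN hNd
    have hNc : N.charpoly = ∏ l : Fin (k + 1), (Polynomial.X - Polynomial.C (δ l.succ)) := by
      rw [charpoly_ut hN]
      refine Finset.prod_congr rfl fun l _ => ?_
      rw [hNd l]
    obtain ⟨φ, hφ⟩ := jorU_bmat_zero_zero δ ζ N v'
    have hP : (∏ l : Fin (k + 1), (δ 0 - δ l.succ)) ≠ 0 := by
      refine Finset.prod_ne_zero_iff.mpr fun l _ => ?_
      refine sub_ne_zero.mpr fun h => ?_
      exact Fin.succ_ne_zero l (hδ h).symm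
    refine ⟨Fin.cons ((1 - φ) / ∏ l : Fin (k + 1), (δ 0 - δ l.succ)) v', ?_⟩
    rw [hTb, det_jorU_bmat δ ζ N hNc, hφ]
    have h1 : (∏ l : Fin (k + 1), (δ 0 - δ l.succ)) *
        ((1 - φ) / ∏ l : Fin (k + 1), (δ 0 - δ l.succ)) + φ = 1 := by
      rw [mul_div_cancel₀ _ hP]
      ring
    rw [h1, one_mul]
    exact hv'

theorem exists_jorU_ut (k : ℕ) (δ : Fin (k + 1) → ℂ) (hδ : Function.Injective δ)
    (T : Matrix (Fin (k + 1)) (Fin (k + 1)) ℂ) (hT : ∀ i j, j < i → T i j = 0)
    (hTd : ∀ i, T i i = δ i) : ∃ v : Fin (k + 1) → ℂ, (jorU δ T v).det ≠ 0 :=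
  exists_jorU_ut_aux k δ hδ T hT hTd

theorem ut_mulVec_tail {n : ℕ} (X : Matrix (Fin n) (Fin n) ℂ) (hX : ∀ i j, j < i → X i j = 0)
    (hXd : ∀ i, X i i ≠ 0) (y : Fin n → ℂ) (c : ℕ)
    (h : ∀ i : Fin n, c < i.val → (X *ᵥ y) i = 0) : ∀ i : Fin n, c < i.val → y i = 0 := by
  have key : ∀ m : ℕ, ∀ i : Fin n, n - i.val ≤ m → c < i.val → y i = 0 := by
    intro m
    induction m with
    | zero =>
      intro i hi _
      have := i.isLt
      omega
    | succ m ih =>
      intro i hi hci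
      have hsum : (X *ᵥ y) i = X i i * y i := by
        simp only [Matrix.mulVec, dotProduct]
        refine Finset.sum_eq_single i (fun j _ hj => ?_) (fun h => absurd (Finset.mem_univ i) h)
        rcases lt_or_gt_of_ne hj with hlt | hgt
        · rw [hX i j hlt, zero_mul]
        · have hv : i.val < j.val := Fin.lt_def.mp hgt
          have hj' := j.isLt
          rw [ih j (by omega) (by omega), mul_zero]
      have h0 := h i hci
      rw [hsum] at h0
      exact (mul_eq_zero.mp h0).resolve_left (hXd i)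
  intro i hi
  exact key n i (by omega) hi

end Vale.Agent.Lib.P002.H72
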