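import Vale.Agent.Lib.P002.G1Defs
import Vale.Agent.Lib.P002.helper17.StepLU
import Vale.Agent.Lib.P002.helper71.LeadLU
import Vale.Agent.Lib.P002.helper33.Numbers

/-!
# P002 pool job G1-H (helper72)

A generic quadruple `U * Lo = l * b` over the complex numbers with prescribed diagonals
(`g1_wit`), and a choice of diagonals (`g1_wit_diag`).
-/

namespace Vale.Agent.Lib.P002.H72

open Matrix
open Vale.Agent.Lib.P002

/-- Partial products of a finite family. -/
noncomputable def pp {n : ℕ} (f : Fin n → ℂ) (t : ℕ) : ℂ :=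
  ∏ j : Fin n, if j.val < t then f j else 1

theorem pp_zero {n : ℕ} (f : Fin n → ℂ) : pp f 0 = 1 := by
  unfold pp
  simp

theorem pp_ge {n : ℕ} (f : Fin n → ℂ) {t : ℕ} (h : n ≤ t) : pp f t = ∏ j, f j := by
  unfold pp
  refine Finset.prod_congr rfl fun j _ => ?_
  rw [if_pos (lt_of_lt_of_le j.isLt h)]

theorem pp_succ {n : ℕ} (f : Fin n → ℂ) (i : Fin n) :
    pp f (i.val + 1) = pp f i.val * f i := by
  unfold pp
  have h : ∀ j : Fin n, (if j.val < i.val + 1 then f j else 1)
      = (if j.val < i.val then f j else 1) * (if j = i then f j else 1) := by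
    intro j
    by_cases h1 : j.val < i.val
    · have h2 : j ≠ i := by
        intro h
        rw [h] at h1
        exact lt_irrefl _ h1
      rw [if_pos h1, if_pos (by omega), if_neg h2, mul_one]
    · by_cases h2 : j = i
      · rw [if_neg h1, if_pos (by rw [h2]; omega), if_pos h2, one_mul]
      · have h3 : ¬ j.val < i.val + 1 := by
          intro h3
          apply h2
          apply Fin.ext
          omega
        rw [if_neg h1, if_neg h3, if_neg h2, one_mul]
  rw [Finset.prod_congr rfl (fun j _ => h j), Finset.prod_mul_distrib, Finset.prod_ite_eq',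
    if_pos (Finset.mem_univ i)]

theorem pp_ne_zero {n : ℕ} (f : Fin n → ℂ) (hf : ∀ i, f i ≠ 0) (t : ℕ) : pp f t ≠ 0 := by
  unfold pp
  refine Finset.prod_ne_zero_iff.mpr fun j _ => ?_
  split_ifs
  · exact hf j
  · exact one_ne_zero

theorem g1_wit : ∀ (k : ℕ) (u l p : Fin (k + 1) → ℂ), (∀ i, u i ≠ 0) → (∀ i, l i ≠ 0) →
    (∀ i, p i ≠ 0) → ∏ i, p i = (∏ i, u i) * ∏ i, l i → (1 ≤ k → p 0 ≠ u 0 * l 0) →
    ∃ U Lo l' b : Matrix (Fin (k + 1)) (Fin (k + 1)) ℂ,
      (∀ i j, j < i → U i j = 0) ∧ (∀ i, U i i = u i) ∧ (∀ i j, i < j → Lo i j = 0) ∧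
      (∀ i, Lo i i = l i) ∧ (∀ i j, i < j → l' i j = 0) ∧ (∀ i, l' i i = 1) ∧
      (∀ i j, j < i → b i j = 0) ∧ (∀ i, b i i = p i) ∧ U * Lo = l' * b ∧
      g1Gen (k + 1) (U * Lo) ≠ 0 := by
  intro k
  induction k with
  | zero =>
    intro u l p hu hl hp hprod _
    have hp0 : p 0 = u 0 * l 0 := by
      simpa [Fin.prod_univ_one] using hprod
    have h01 : ∀ i : Fin (0 + 1), i = 0 := fun i => Fin.eq_zero i
    have hno : ∀ i j : Fin (0 + 1), ¬ (j < i) := by
      intro i j hij
      rw [h01 i, h01 j] at hij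
      exact lt_irrefl _ hij
    have hmul : ∀ A B : Matrix (Fin (0 + 1)) (Fin (0 + 1)) ℂ, (A * B) 0 0 = A 0 0 * B 0 0 := by
      intro A B
      rw [Matrix.mul_apply, Fin.sum_univ_succ, Fin.sum_univ_zero, add_zero]
    refine ⟨Matrix.of fun _ _ => u 0, Matrix.of fun _ _ => l 0, 1, Matrix.of fun _ _ => p 0,
      ?_, ?_, ?_, ?_, ?_, ?_, ?_, ?_, ?_, ?_⟩
    · intro i j hij
      exact absurd hij (hno i j)
    · intro i
      rw [h01 i]
      rfl
    · intro i j hij
      exact absurd hij (hno j i)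
    · intro i
      rw [h01 i]
      rfl
    · intro i j hij
      exact absurd hij (hno j i)
    · intro i
      exact Matrix.one_apply_eq i
    · intro i j hij
      exact absurd hij (hno i j)
    · intro i
      rw [h01 i]
      rfl
    · ext i j
      rw [h01 i, h01 j, hmul, Matrix.one_mul]
      exact hp0.symm
    · rw [g1Gen_succ, g1Gen_zero]
      simp only [Finset.range_zero, Finset.prod_empty, mul_one]
      rw [Finset.prod_range_succ, Finset.prod_range_zero, one_mul, lead_of_le _ _ _ (le_refl _),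
        det_ut (fun i j hij => absurd hij (hno i j)), Fin.prod_univ_succ, Fin.prod_univ_zero,
        mul_one, hmul]
      exact mul_ne_zero (hu 0) (hl 0)
  | succ k ih =>
    intro u l p hu hl hp hprod hp0'
    have hp0 : p 0 ≠ u 0 * l 0 := hp0' (Nat.succ_le_succ (Nat.zero_le k))
    obtain ⟨c, hcdef⟩ : ∃ c : ℂ,
        c = (∏ i : Fin (k + 1), u i.succ) * ∏ i : Fin (k + 1), l i.succ := ⟨_, rfl⟩
    have hc : c ≠ 0 := by
      rw [hcdef]
      exact mul_ne_zero (Finset.prod_ne_zero_iff.mpr fun i _ => hu i.succ)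
        (Finset.prod_ne_zero_iff.mpr fun i _ => hl i.succ)
    have hprod' : p 0 * ∏ i : Fin (k + 1), p i.succ = u 0 * l 0 * c := by
      rw [← Fin.prod_univ_succ, hprod, Fin.prod_univ_succ u, Fin.prod_univ_succ l, hcdef]
      ring
    have hqc : ∏ i : Fin (k + 1), p i.succ ≠ c := by
      intro h
      rw [h] at hprod'
      exact hp0 (mul_right_cancel₀ hc hprod')
    obtain ⟨p', hp', hp'prod, hp'q, hp'0⟩ :=
      H33.g1_numbers k (fun i => p i.succ) c (u (Fin.succ 0) * l (Fin.succ 0))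
        (fun i => hp i.succ) hc hqc
    obtain ⟨U', L', l'', b'', hU', hU'd, hL', hL'd, hl'', hl''d, hb'', hb''d, hq, hgen⟩ :=
      ih (fun i => u i.succ) (fun i => l i.succ) p' (fun i => hu i.succ) (fun i => hl i.succ) hp'
        (by rw [hp'prod, hcdef]) (fun hk => hp'0 hk)
    have hP : ∀ t, pp p t ≠ 0 := fun t => pp_ne_zero p hp t
    have hP' : ∀ t, pp p' t ≠ 0 := fun t => pp_ne_zero p' hp' t
    obtain ⟨s, hsdef⟩ : ∃ s : ℕ → ℂˣ, ∀ t, (s t : ℂ) = pp p (t + 1) / pp p' t :=
      ⟨fun t => Units.mk0 (pp p (t + 1) / pp p' t) (div_ne_zero (hP _) (hP' _)), fun t => rfl⟩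
    have hdU : IsUnit U'.det := by
      rw [det_ut hU']
      refine isUnit_iff_ne_zero.mpr (Finset.prod_ne_zero_iff.mpr fun i _ => ?_)
      rw [hU'd i]
      exact hu i.succ
    have hdL : IsUnit L'.det := by
      rw [det_lt hL']
      refine isUnit_iff_ne_zero.mpr (Finset.prod_ne_zero_iff.mpr fun i _ => ?_)
      rw [hL'd i]
      exact hl i.succ
    have hsk : (s (k + 1) : ℂ) = u 0 * l 0 := by
      rw [hsdef, pp_ge p (le_refl _), pp_ge p' (le_refl _), hp'prod, Fin.prod_univ_succ, hprod',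
        mul_div_assoc, div_self hc, mul_one]
    obtain ⟨ρ, c', lm, bt, -, -, hlm, hlmd, hbt, hbt0, hbtd, hfac⟩ :=
      H17.g1_step (k + 1) U' L' U'⁻¹ L'⁻¹ l'' b'' (Matrix.mul_nonsing_inv U' hdU)
        (Matrix.mul_nonsing_inv L' hdL) hl'' hl''d hb'' hq (u 0) (l 0) s (fun _ => 1)
        (fun i => (s i.val : ℂ) - (s (i.val + 1) : ℂ)) (fun i => one_mul _) hsk
    have hbtp : ∀ i, bt i i = p i := by
      intro i
      refine Fin.cases ?_ (fun i => ?_) i
      · have h1 : pp p (0 + 1) = p 0 := by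
          have h := pp_succ p (0 : Fin (k + 1 + 1))
          rw [Fin.val_zero, pp_zero, one_mul] at h
          exact h
        rw [hbt0, hsdef, pp_zero, div_one, h1]
      · have e1 : pp p' (i.val + 1) = pp p' i.val * p' i := pp_succ p' i
        have e2 : pp p (i.val + 1 + 1) = pp p (i.val + 1) * p i.succ := pp_succ p i.succ
        rw [hbtd i, hb''d i, Units.val_mul, Units.val_inv_eq_inv_val, hsdef, hsdef, e1, e2]
        have h1 := hP (i.val + 1)
        have h2 := hP' i.val
        have h3 := hp' i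
        field_simp
    refine ⟨bmat (u 0) ρ 0 U', bmat (l 0) 0 c' L', lm, bt,
      (bmat_ut ρ U' u hU' hU'd).1, (bmat_ut ρ U' u hU' hU'd).2,
      (bmat_lt c' L' l hL' hL'd).1, (bmat_lt c' L' l hL' hL'd).2, hlm, hlmd, hbt, hbtp, hfac, ?_⟩
    have hlead : ∀ t, lead t (k + 1 + 1) (lm * bt) = pp p t := by
      intro t
      rw [H71.lead_mul_lt_ut (k + 1 + 1) t lm bt hlm hbt]
      unfold pp
      refine Finset.prod_congr rfl fun j _ => ?_
      rw [hlmd j, hbtp j, one_mul]
    have hsub : (lm * bt).submatrix Fin.succ Fin.succ = l'' * b'' := by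
      rw [← hfac, bmat_mul, bmat_submatrix, ← hq]
      simp
    have hlead' : ∀ t, lead t (k + 1) (l'' * b'') = pp p' t := by
      intro t
      rw [H71.lead_mul_lt_ut (k + 1) t l'' b'' hl'' hb'']
      unfold pp
      refine Finset.prod_congr rfl fun j _ => ?_
      rw [hl''d j, hb''d j, one_mul]
    rw [hfac, g1Gen_succ, hsub]
    simp only [hlead, hlead']
    refine mul_ne_zero (mul_ne_zero ?_ ?_) ?_
    · exact Finset.prod_ne_zero_iff.mpr fun t _ => hP _
    · refine Finset.prod_ne_zero_iff.mpr fun i hi => ?_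
      have hi' : i < k + 1 := Finset.mem_range.mp hi
      have e1 : pp p' (i + 1) = pp p' i * p' ⟨i, hi'⟩ := pp_succ p' ⟨i, hi'⟩
      have e2 : pp p (i + 2) = pp p (i + 1) * p (Fin.succ ⟨i, hi'⟩) :=
        pp_succ p (Fin.succ ⟨i, hi'⟩)
      rw [e1, e2]
      have e3 : pp p (i + 1) * (pp p' i * p' ⟨i, hi'⟩)
          - pp p (i + 1) * p (Fin.succ ⟨i, hi'⟩) * pp p' i
          = pp p (i + 1) * pp p' i * (p' ⟨i, hi'⟩ - p (Fin.succ ⟨i, hi'⟩)) := by ring
      rw [e3]
      exact mul_ne_zero (mul_ne_zero (hP _) (hP' _)) (sub_ne_zero.mpr (hp'q ⟨i, hi'⟩))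
    · rw [← hq]
      exact hgen

theorem g1_wit_diag (k : ℕ) (δ : Fin (k + 1) → ℂ) (s : ℂ) (hs : s * s = 1) :
    ∃ u l : Fin (k + 1) → ℂ, (∀ i, u i ≠ 0) ∧ (∀ i, l i ≠ 0) ∧ ∏ i, u i = s ∧ ∏ i, l i = 1 ∧
      (1 ≤ k → δ 0 * u 0 * l (Fin.rev 0) ≠ u 0 * l 0) := by
  have hs0 : s ≠ 0 := by
    intro h
    rw [h, mul_zero] at hs
    exact zero_ne_one hs
  have hu : ∀ i : Fin (k + 1), (Fin.cons s (fun _ => 1) : Fin (k + 1) → ℂ) i ≠ 0 := by
    intro i
    refine Fin.cases ?_ (fun i => ?_) i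
    · rw [Fin.cons_zero]
      exact hs0
    · rw [Fin.cons_succ]
      exact one_ne_zero
  have hup : ∏ i, (Fin.cons s (fun _ => 1) : Fin (k + 1) → ℂ) i = s := by
    rw [Fin.prod_univ_succ]
    simp
  cases k with
  | zero =>
    exact ⟨Fin.cons s (fun _ => 1), fun _ => 1, hu, fun _ => one_ne_zero, hup, by simp,
      fun h => absurd h (by norm_num)⟩
  | succ m =>
    obtain ⟨x, hx⟩ : ∃ x : ℂ, x = if δ 0 = 1 then 2 else 1 := ⟨_, rfl⟩
    have hx0 : x ≠ 0 := by
      rw [hx]
      split_ifs <;> norm_num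
    have hxx : δ 0 ≠ x * x := by
      rw [hx]
      split_ifs with h
      · rw [h]
        norm_num
      · simpa using h
    obtain ⟨l, hl⟩ : ∃ l : Fin (m + 1 + 1) → ℂ,
        l = fun i => if i = 0 then x else if i = Fin.last (m + 1) then x⁻¹ else 1 := ⟨_, rfl⟩
    have hl0 : l 0 = x := by
      rw [hl]
      simp
    have hlast : l (Fin.last (m + 1)) = x⁻¹ := by
      rw [hl]
      have h : (Fin.last (m + 1) : Fin (m + 1 + 1)) ≠ 0 := Fin.last_pos.ne'
      simp [h]
    refine ⟨Fin.cons s (fun _ => 1), l, hu, ?_, hup, ?_, ?_⟩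
    · intro i
      rw [hl]
      show (if i = 0 then x else if i = Fin.last (m + 1) then x⁻¹ else 1) ≠ 0
      split_ifs
      · exact hx0
      · exact inv_ne_zero hx0
      · exact one_ne_zero
    · rw [Fin.prod_univ_succ, hl0]
      have h1 : ∀ i : Fin (m + 1), l i.succ = if i = Fin.last m then x⁻¹ else 1 := by
        intro i
        rw [hl]
        show (if i.succ = 0 then x else if i.succ = Fin.last (m + 1) then x⁻¹ else 1) = _
        rw [if_neg (Fin.succ_ne_zero i)]
        by_cases h : i = Fin.last m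
        · rw [if_pos h, if_pos (by rw [h, Fin.succ_last])]
        · rw [if_neg h, if_neg]
          intro h'
          apply h
          rw [← Fin.succ_last] at h'
          exact Fin.succ_injective _ h'
      rw [Finset.prod_congr rfl (fun i _ => h1 i), Finset.prod_ite_eq',
        if_pos (Finset.mem_univ _), mul_inv_cancel₀ hx0]
    · intro _
      rw [Fin.rev_zero, hlast, hl0, Fin.cons_zero]
      intro h
      apply hxx
      have h2 : δ 0 * s * x⁻¹ * x = s * x * x := by rw [h]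
      rw [mul_assoc (δ 0 * s), inv_mul_cancel₀ hx0, mul_one, mul_comm (δ 0) s, mul_assoc s] at h2
      exact mul_left_cancel₀ hs0 h2

end Vale.Agent.Lib.P002.H72
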